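import Vale.Agent.P036.Defs
import Vale.Agent.P036.Bdl.B1

namespace Vale.Agent.Results.P036.WellSpaced

open Vale.Agent.P036

/-- Every `n`-point set in the unit square whose covering radius is at most `K / √n` has a triangle
of area at most `80000 K^(7/3) n^(-7/6)`. -/
theorem result (P : Finset (EuclideanSpace ℝ (Fin 2))) (hcard : 3 ≤ P.card)
    (hsquare : ∀ p ∈ P, ∀ i, 0 ≤ p i ∧ p i ≤ 1) (K : ℝ) (hK : 0 < K)
    (hcover : ∀ x : EuclideanSpace ℝ (Fin 2), (∀ i, 0 ≤ x i ∧ x i ≤ 1) →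
      ∃ p ∈ P, dist x p ≤ K * (P.card : ℝ) ^ (-(1 / 2) : ℝ)) :
    minArea P ≤ 80000 * K ^ (7 / 3 : ℝ) * (P.card : ℝ) ^ (-(7 / 6) : ℝ) := by
  have hn : (0 : ℝ) < P.card := by
    have : 0 < P.card := by omega
    exact_mod_cast this
  have h := covering_small P hcard hsquare (K * (P.card : ℝ) ^ (-(1 / 2) : ℝ)) (by positivity) hcover
  rw [Real.mul_rpow hK.le (by positivity), ← Real.rpow_mul hn.le] at h
  norm_num at h
  norm_num
  linarith

end Vale.Agent.Results.P036.WellSpaced
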